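import Vale.Agent.P022E.Dk.Big
import Vale.Agent.P022E.Br.Lev

/-!
P022F: the integral normal form of an irreducible representation which is residually a sum of
two distinct characters.
-/

set_option linter.all false

open Matrix IsLocalRing

noncomputable section

namespace Vale.Agent.P022F.Nf

open Vale.Agent.P022 Vale.Agent.P022D.Dk Vale.Agent.P022D.Top

section

variable {E E' : Type} [NontriviallyNormedField E] [NormedAlgebra ℚ_[2] E] [IsUltrametricDist E]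
  [NontriviallyNormedField E'] [NormedAlgebra ℚ_[2] E'] [IsUltrametricDist E']
  [FiniteDimensional ℚ_[2] E'] [NormedAlgebra E E']

theorem zero_iff {Ω : Type} [Field Ω] [CharP Ω 2] (π : Ob E →+* Ω) (x : Ob E) :
    π x = 0 ↔ ‖(x : E)‖ < 1 :=
  ⟨P022E.Br.small_of _ (fun _ => mem_Ob) π x, H315.Sv.pi_small _ (fun _ => mem_Ob) π x⟩

/-- extension of a reduction map -/
theorem ext_res {Ω : Type} [Field Ω] [IsAlgClosed Ω] [CharP Ω 2] (π : Ob E →+* Ω) :
    ∃ ι : Ob E' →+* Ω, ∀ (x : Ob E) (y : Ob E'), (y : E') = algebraMap E E' x → ι y = π x := by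
  let j : Ob E →+* Ob E' := ((algebraMap E E').comp (Ob E).subtype).codRestrict (Ob E') fun x =>
    mem_Ob.2 (by
      change ‖algebraMap E E' (x : E)‖ ≤ 1
      rw [norm_algebraMap']
      exact norm_Ob x)
  have hj : ∀ x, (j x : E') = algebraMap E E' x := fun _ => rfl
  haveI : IsLocalHom j := ⟨fun x hx => by
    rw [unit_Ob] at hx ⊢
    rwa [hj, norm_algebraMap'] at hx⟩
  haveI : IsLocalHom π := ⟨fun x hx => by
    by_contra hn
    exact hx.ne_zero ((zero_iff π x).2 (max_Ob.1 hn))⟩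
  letI : Algebra (ResidueField (Ob E)) (ResidueField (Ob E')) := (ResidueField.map j).toAlgebra
  letI : Algebra (ResidueField (Ob E)) Ω := (ResidueField.lift π).toAlgebra
  haveI : Module.Finite (ResidueField (Ob E)) (ResidueField (Ob E')) := Module.Finite.of_finite
  let φ : ResidueField (Ob E') →ₐ[ResidueField (Ob E)] Ω := IsAlgClosed.lift
  refine ⟨(φ : ResidueField (Ob E') →+* Ω).comp (residue _), fun x y h => ?_⟩
  have e : y = j x := Subtype.ext h
  have h1 := φ.commutes (residue _ x)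
  rw [e]
  exact h1

end

theorem ne_of_irr {E E' : Type} [Field E] [Field E'] [Algebra E E'] [Algebra.IsAlgebraic E E']
    {r : GQ →* GL (Fin 2) E} (hi : St.AbsIrr r) (P : GL (Fin 2) E') :
    ∃ g, (cj P (bc E' r) g : Matrix (Fin 2) (Fin 2) E') 0 1 ≠ 0 := by
  by_contra hn
  push Not at hn
  let φ : E' →ₐ[E] AlgebraicClosure E := IsAlgClosed.lift
  have hP : ∀ g, (bc E' r g : Matrix (Fin 2) (Fin 2) E') * (P : Matrix (Fin 2) (Fin 2) E') =
      (P : Matrix (Fin 2) (Fin 2) E') * (cj P (bc E' r) g : Matrix (Fin 2) (Fin 2) E') := by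
    intro g
    rw [← Units.val_mul, ← Units.val_mul, cj_apply]
    congr 1
    group
  obtain ⟨g, hg⟩ := hi (fun i => φ ((P : Matrix (Fin 2) (Fin 2) E') i 1)) (by
    intro e
    have e0 : (P : Matrix (Fin 2) (Fin 2) E') 0 1 = 0 :=
      (map_eq_zero φ).1 (congrFun e 0)
    have e1 : (P : Matrix (Fin 2) (Fin 2) E') 1 1 = 0 :=
      (map_eq_zero φ).1 (congrFun e 1)
    have h1 := P.det_ne_zero
    rw [Matrix.det_fin_two, e0, e1] at h1
    simp at h1)
  refine hg (φ ((cj P (bc E' r) g : Matrix (Fin 2) (Fin 2) E') 1 1)) ?_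
  funext i
  have h1 := congrArg φ (congrFun (congrFun (hP g) i) 1)
  rw [Matrix.mul_apply, Matrix.mul_apply, Fin.sum_univ_two, Fin.sum_univ_two, hn, mul_zero,
    zero_add, map_add, map_mul, map_mul, map_mul, H20.bc_coe, map_apply, map_apply, φ.commutes,
    φ.commutes] at h1
  simp only [mulVec, dotProduct, Fin.sum_univ_two, map_apply, Pi.smul_apply, smul_eq_mul]
  rw [h1, mul_comm]

/-- the normal form -/
structure NF {E Ω : Type} [NontriviallyNormedField E] [IsUltrametricDist E] [Field Ω]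
    (s : GQ →* GL (Fin 2) E) (ι : Ob E →+* Ω) (a d : GQ → Ω) (g₀ : GQ) : Prop where
  int : ∀ g i j, ‖(s g : Matrix (Fin 2) (Fin 2) E) i j‖ ≤ 1
  lo : ∀ g, ‖(s g : Matrix (Fin 2) (Fin 2) E) 1 0‖ < 1
  dg : (s g₀ : Matrix (Fin 2) (Fin 2) E) 0 1 = 0 ∧ (s g₀ : Matrix (Fin 2) (Fin 2) E) 1 0 = 0
  up : ∃ g, (s g : Matrix (Fin 2) (Fin 2) E) 0 1 = 1
  c0 : ∀ g (x : Ob E), (x : E) = (s g : Matrix (Fin 2) (Fin 2) E) 0 0 → ι x = a g
  c1 : ∀ g (x : Ob E), (x : E) = (s g : Matrix (Fin 2) (Fin 2) E) 1 1 → ι x = d g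

theorem nf_of {E Ω : Type} [NontriviallyNormedField E] [NormedAlgebra ℚ_[2] E]
    [IsUltrametricDist E] [Field Ω] [CharP Ω 2] {r : GQ →* GL (Fin 2) E} (hc : Continuous r)
    (hi : ∀ P : GL (Fin 2) E, ∃ g, (cj P r g : Matrix (Fin 2) (Fin 2) E) 0 1 ≠ 0)
    (ι : Ob E →+* Ω) (a d : GQ →* Ω)
    (ht : ∀ g, ∃ t : Ob E, (t : E) = (r g : Matrix (Fin 2) (Fin 2) E).trace ∧ ι t = a g + d g)
    {g₀ : GQ} (hne : a g₀ ≠ d g₀) (α β : Ob E)
    (h1 : (r g₀ : Matrix (Fin 2) (Fin 2) E).trace = α + β)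
    (h2 : (r g₀ : Matrix (Fin 2) (Fin 2) E).det = α * β) (hα : ι α = a g₀) (hβ : ι β = d g₀) :
    ∃ P, NF (cj P r) ι a d g₀ := by
  have hab : ‖((α - β : Ob E) : E)‖ = 1 := le_antisymm (norm_Ob _) (not_lt.1 fun h => by
    have h3 := (zero_iff ι _).2 h
    rw [map_sub, hα, hβ, sub_eq_zero] at h3
    exact hne h3)
  obtain ⟨u, hu⟩ := (unit_Ob.2 hab).exists_right_inv
  have hu' : ((α : E) - β) * u = 1 := congrArg Subtype.val hu
  have hu2 : (a g₀ - d g₀) * ι u = 1 := by rw [← hα, ← hβ, ← map_sub, ← map_mul, hu, map_one]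
  have hne' : (α : E) ≠ β := fun h => by
    rw [h, sub_self, zero_mul] at hu'
    exact zero_ne_one hu'
  obtain ⟨P, hP⟩ := diag (r g₀) α β hne' h1 h2
  obtain ⟨s, hsd⟩ : ∃ s, s = cj P r := ⟨_, rfl⟩
  have hP' : (s g₀ : Matrix (Fin 2) (Fin 2) E) = !![(α : E), 0; 0, β] := by rw [hsd]; exact hP
  have hts : ∀ g, ∃ t : Ob E, (t : E) = (s g : Matrix (Fin 2) (Fin 2) E).trace ∧
      ι t = a g + d g := fun g => by
    rw [hsd, cj_trace]
    exact ht g
  choose t t1 t2 using hts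
  have e : ∀ g, (t (g₀ * g) : E) = α * (s g : Matrix (Fin 2) (Fin 2) E) 0 0 +
      β * (s g : Matrix (Fin 2) (Fin 2) E) 1 1 := fun g => by
    rw [t1, map_mul, Units.val_mul, hP', Matrix.trace_fin_two]
    simp [Matrix.mul_apply, Fin.sum_univ_two]
  let A : GQ → Ob E := fun g => (t (g₀ * g) - β * t g) * u
  let D : GQ → Ob E := fun g => (α * t g - t (g₀ * g)) * u
  have A1 : ∀ g, (A g : E) = (s g : Matrix (Fin 2) (Fin 2) E) 0 0 := fun g => by
    change ((t (g₀ * g) : E) - β * t g) * u = _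
    rw [e, t1, Matrix.trace_fin_two]
    linear_combination (s g : Matrix (Fin 2) (Fin 2) E) 0 0 * hu'
  have D1 : ∀ g, (D g : E) = (s g : Matrix (Fin 2) (Fin 2) E) 1 1 := fun g => by
    change ((α : E) * t g - t (g₀ * g)) * u = _
    rw [e, t1, Matrix.trace_fin_two]
    linear_combination (s g : Matrix (Fin 2) (Fin 2) E) 1 1 * hu'
  have A2 : ∀ g, ι (A g) = a g := fun g => by
    change ι ((t (g₀ * g) - β * t g) * u) = _
    rw [map_mul, map_sub, map_mul, t2, t2, hβ, map_mul, map_mul]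
    linear_combination a g * hu2
  have D2 : ∀ g, ι (D g) = d g := fun g => by
    change ι ((α * t g - t (g₀ * g)) * u) = _
    rw [map_mul, map_sub, map_mul, t2, t2, hα, map_mul, map_mul]
    linear_combination d g * hu2
  clear_value A D
  have hmul : ∀ g g', (s (g * g') : Matrix (Fin 2) (Fin 2) E) 0 0 =
      (s g : Matrix (Fin 2) (Fin 2) E) 0 0 * (s g' : Matrix (Fin 2) (Fin 2) E) 0 0 +
      (s g : Matrix (Fin 2) (Fin 2) E) 0 1 * (s g' : Matrix (Fin 2) (Fin 2) E) 1 0 := by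
    intro g g'
    rw [map_mul, Units.val_mul, Matrix.mul_apply, Fin.sum_univ_two]
  have hbc : ∀ g g', ‖(s g : Matrix (Fin 2) (Fin 2) E) 0 1 *
      (s g' : Matrix (Fin 2) (Fin 2) E) 1 0‖ < 1 := fun g g' => by
    have h3 : ι (A (g * g') - A g * A g') = 0 := by
      rw [map_sub, map_mul, A2, A2, A2, map_mul, sub_self]
    have h4 := (zero_iff ι _).1 h3
    rwa [AddSubgroupClass.coe_sub, Subring.coe_mul, A1, A1, A1, hmul, add_sub_cancel_left] at h4
  haveI : CompactSpace GQ := by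
    have h1 : Algebra.IsAlgebraic ℚ Qb := AlgebraicClosure.isAlgebraic ℚ
    have h2 : IsAlgClosure ℚ Qb := ⟨inferInstance, inferInstance⟩
    have h3 : IsGalois ℚ Qb := IsAlgClosure.isGalois ℚ Qb
    infer_instance
  have hsc : Continuous s := by rw [hsd]; exact cj_cont P hc
  have hb : Continuous fun g => ‖(s g : Matrix (Fin 2) (Fin 2) E) 0 1‖ :=
    ((Units.continuous_val.comp hsc).matrix_elem 0 1).norm
  obtain ⟨g₁, -, hg₁⟩ := isCompact_univ.exists_isMaxOn Set.univ_nonempty hb.continuousOn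
  have hm : ∀ g, ‖(s g : Matrix (Fin 2) (Fin 2) E) 0 1‖ ≤
      ‖(s g₁ : Matrix (Fin 2) (Fin 2) E) 0 1‖ := fun g => hg₁ (Set.mem_univ g)
  have hb0 : (s g₁ : Matrix (Fin 2) (Fin 2) E) 0 1 ≠ 0 := fun h => by
    obtain ⟨g, hg⟩ := hi P
    rw [← hsd] at hg
    have h3 := hm g
    rw [h, norm_zero, norm_le_zero_iff] at h3
    exact hg h3
  obtain ⟨Q, hQ⟩ := P022E.Dk.scale4 _ hb0
  refine ⟨P * Q, ?_⟩
  rw [← cj_cj, ← hsd]
  have hQ' : ∀ g, (cj Q s g : Matrix (Fin 2) (Fin 2) E) = _ := fun g => hQ (s g)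
  refine ⟨fun g i j => ?_, fun g => ?_, ?_, ⟨g₁, ?_⟩, fun g x hx => ?_, fun g x hx => ?_⟩
  · rw [hQ']
    fin_cases i <;> fin_cases j
    · exact (A1 g) ▸ norm_Ob (A g)
    · change ‖((s g₁ : Matrix (Fin 2) (Fin 2) E) 0 1)⁻¹ * (s g : Matrix (Fin 2) (Fin 2) E) 0 1‖ ≤ 1
      rw [norm_mul, norm_inv, inv_mul_le_iff₀ (norm_pos_iff.2 hb0), mul_one]
      exact hm g
    · exact (hbc g₁ g).le
    · exact (D1 g) ▸ norm_Ob (D g)
  · rw [hQ']
    exact hbc g₁ g
  · rw [hQ', hP']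
    simp
  · rw [hQ']
    exact inv_mul_cancel₀ hb0
  · rw [hQ'] at hx
    rw [show x = A g from Subtype.ext (hx.trans (A1 g).symm), A2]
  · rw [hQ'] at hx
    rw [show x = D g from Subtype.ext (hx.trans (D1 g).symm), D2]

/-- **the integral model over a finite extension** -/
theorem model {E : Type} [NontriviallyNormedField E] [NormedAlgebra ℚ_[2] E]
    [FiniteDimensional ℚ_[2] E] {r : GQ →* GL (Fin 2) E} (hc : Continuous r) (hi : St.AbsIrr r)
    {Ω : Type} [Field Ω] [IsAlgClosed Ω] [CharP Ω 2] (O : Subring E) (π : O →+* Ω)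
    (hO : ∀ x : E, x ∈ O ↔ ‖x‖ ≤ 1) (a d : GQ →* Ω)
    (ht : ∀ g, ∃ x y : O, (x : E) = (r g : Matrix (Fin 2) (Fin 2) E).trace ∧
      (y : E) = (r g : Matrix (Fin 2) (Fin 2) E).det ∧ π x = a g + d g ∧ π y = a g * d g)
    {g₀ : GQ} (hne : a g₀ ≠ d g₀) :
    ∃ (E' : Type) (_ : NontriviallyNormedField E') (_ : NormedAlgebra ℚ_[2] E')
      (_ : IsUltrametricDist E') (_ : FiniteDimensional ℚ_[2] E') (_ : NormedAlgebra E E')
      (_ : IsScalarTower ℚ_[2] E E') (P : GL (Fin 2) E') (ι : Ob E' →+* Ω),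
      NF (cj P (bc E' r)) ι a d g₀ := by
  have hu : IsUltrametricDist E := IsUltrametricDist.of_normedAlgebra ℚ_[2]
  obtain rfl : O = Ob E := Subring.ext fun x => (hO x).trans mem_Ob.symm
  obtain ⟨E', i1, i2, i3, i4, i5, i6, hp⟩ := ext_split E
    (r g₀ : Matrix (Fin 2) (Fin 2) E).charpoly
  refine ⟨E', i1, i2, i3, i4, i5, i6, ?_⟩
  obtain ⟨ι, hι⟩ := ext_res (E' := E') π
  haveI : FiniteDimensional E E' := Module.Finite.of_restrictScalars_finite ℚ_[2] E E'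
  have up : ∀ x : Ob E, ∃ y : Ob E', (y : E') = algebraMap E E' x ∧ ι y = π x := fun x =>
    ⟨⟨algebraMap E E' x, mem_Ob.2 (by rw [norm_algebraMap']; exact norm_Ob x)⟩, rfl, hι _ _ rfl⟩
  have hd : ((r g₀ : Matrix (Fin 2) (Fin 2) E).charpoly.map (algebraMap E E')).degree ≠ 0 := by
    rw [Polynomial.degree_map, Matrix.charpoly_degree_eq_dim]
    simp
  obtain ⟨α, hα⟩ := hp.exists_eval_eq_zero hd
  rw [Matrix.charpoly_fin_two] at hα
  obtain ⟨x, y, x1, y1, x2, y2⟩ := ht g₀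
  obtain ⟨X, X1, X2⟩ := up x
  obtain ⟨Y, Y1, Y2⟩ := up y
  have hα' : α ^ 2 - (X : E') * α + Y = 0 := by
    rw [X1, Y1, x1, y1]
    simpa using hα
  let A : Ob E' := ⟨α, mem_Ob.2 (P022E.Dk.root_le (norm_Ob X) (norm_Ob Y) hα')⟩
  have hA : A ^ 2 - X * A + Y = 0 := Subtype.ext hα'
  have hA2 : (ι A - a g₀) * (ι A - d g₀) = 0 := by
    have h3 := congrArg ι hA
    rw [map_add, map_sub, map_mul, map_pow, X2, Y2, x2, y2, map_zero] at h3
    linear_combination h3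
  have key : ∀ α β : Ob E', α + β = X → α * β = Y → ι α = a g₀ →
      ∃ P, NF (cj P (bc E' r)) ι a d g₀ := fun α β h1 h2 h3 =>
    nf_of (bc_cont E' hc) (ne_of_irr hi) ι a d (fun g => by
      obtain ⟨x, -, x1, -, x2, -⟩ := ht g
      obtain ⟨X, X1, X2⟩ := up x
      exact ⟨X, by rw [H20.bc_trace, X1, x1], X2.trans x2⟩) hne α β
      (by rw [H20.bc_trace, ← x1, ← X1, ← h1]; rfl) (by rw [H20.bc_det, ← y1, ← Y1, ← h2]; rfl) h3
      (by
        have h4 := congrArg ι h1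
        rw [map_add, X2, x2, h3] at h4
        exact add_left_cancel h4)
  rcases mul_eq_zero.1 hA2 with h | h
  · obtain ⟨P, hP⟩ := key A (X - A) (by ring) (by linear_combination -hA) (sub_eq_zero.1 h)
    exact ⟨P, ι, hP⟩
  · obtain ⟨P, hP⟩ := key (X - A) A (by ring) (by linear_combination -hA) (by
      rw [map_sub, X2, x2, sub_eq_zero.1 h, add_sub_cancel_right])
    exact ⟨P, ι, hP⟩

end Vale.Agent.P022F.Nf
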