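import Vale.Agent.P022E.Br.Lev
import Vale.Agent.P022D.Top.Setup
import Vale.Agent.P022D.W.Odd
import Vale.Agent.P022D.V.Emb
import Vale.Agent.P022F.Eis

/-!
P022F: the residual level of a residually reducible representation.
-/

set_option linter.all false

open Matrix IsLocalRing NumberField

noncomputable section

namespace Vale.Agent.P022F.Th

open Vale.Agent.P022 Vale.Agent.P022.H567.Tw Vale.Agent.P022.H853 Vale.Agent.P022.H790.CT
  Vale.Agent.P022D
  Vale.Agent.P022D.Dk Vale.Agent.P022D.Top Vale.Agent.P022D.End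

variable {E : Type} [NontriviallyNormedField E] [NormedAlgebra ℚ_[2] E] [IsUltrametricDist E]
  [FiniteDimensional ℚ_[2] E]

/-- the Teichmüller lift -/
theorem teich : ∃ T : (ResidueField (Ob E))ˣ →* Ob E, ∀ x, residue _ (T x) = x := by
  classical
  haveI := Fintype.ofFinite (ResidueField (Ob E))
  haveI := (cpl_Ob (E := E))
  have hk : RingHom.ker (residue (Ob E)) = maximalIdeal (Ob E) := ker_residue
  haveI : HenselianRing (Ob E) (RingHom.ker (residue (Ob E))) := by rw [hk]; infer_instance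
  obtain ⟨n, -, hn⟩ := FiniteField.card (ResidueField (Ob E)) 2
  obtain ⟨m, hm⟩ : ∃ m, m = Fintype.card (ResidueField (Ob E)) - 1 := ⟨_, rfl⟩
  have ho : Odd m := by
    rw [hm, hn]
    exact Nat.Even.sub_odd (Nat.one_le_two_pow) (Nat.even_pow.2 ⟨even_two, n.ne_zero⟩) odd_one
  have two : (2 : ResidueField (Ob E)) = 0 := CharTwo.two_eq_zero
  choose e h1 h2 using fun x : (ResidueField (Ob E))ˣ => W.exists_teich (residue (Ob E))
    residue_surjective (fun a ha => (notMem_maximalIdeal).1 fun h =>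
      ha ((residue_eq_zero_iff a).2 h)) two ho (x := x) (by
        rw [hm]
        exact FiniteField.pow_card_sub_one_eq_one _ x.ne_zero)
  have u1 : ∀ w : Ob E, w ^ m = 1 → residue _ w = 1 → w = 1 := fun w a b => by
    have h3 := mul_geom_sum w m
    rw [a, sub_self, mul_eq_zero] at h3
    refine sub_eq_zero.1 (h3.resolve_right fun h4 => ?_)
    have h5 := congrArg (residue (Ob E)) h4
    obtain ⟨k, hk⟩ := ho
    simp only [map_sum, map_pow, b, one_pow, Finset.sum_const, Finset.card_range, nsmul_eq_mul,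
      mul_one, map_zero] at h5
    rw [hk] at h5
    push_cast at h5
    rw [two, zero_mul, zero_add] at h5
    exact one_ne_zero h5
  have u2 : ∀ y z : Ob E, y ^ m = 1 → z ^ m = 1 → residue _ y = residue _ z → y = z := by
    intro y z a b c
    obtain ⟨k, hk⟩ := Nat.exists_eq_succ_of_ne_zero ho.pos.ne'
    have h3 := u1 (y * z ^ k) (by rw [mul_pow, a, ← pow_mul, mul_comm k, pow_mul, b]; simp) (by
      rw [map_mul, c, ← map_mul, ← pow_succ', ← Nat.succ_eq_add_one, ← hk, b, map_one])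
    calc y = y * z ^ m := by rw [b, mul_one]
      _ = y * z ^ k * z := by rw [hk, pow_succ, mul_assoc]
      _ = z := by rw [h3, one_mul]
  exact ⟨⟨⟨e, u1 _ (h1 1) (h2 1)⟩, fun x y => u2 _ _ (h1 _) (by rw [mul_pow, h1, h1, mul_one])
    (by rw [map_mul, h2, h2, h2, Units.val_mul])⟩, h2⟩

/-- **the residual level** -/
theorem th {s : GQ →* GL (Fin 2) E}
    (hi : ∀ g i j, ‖(s g : Matrix (Fin 2) (Fin 2) E) i j‖ ≤ 1)
    (lo : ∀ g, ‖(s g : Matrix (Fin 2) (Fin 2) E) 1 0‖ < 1)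
    (reg : ∃ g, ‖(s g : Matrix (Fin 2) (Fin 2) E) 0 0 - (s g : Matrix (Fin 2) (Fin 2) E) 1 1‖ = 1)
    (hD : DetOne s) (ho : ∃ U : Subgroup GQ, IsOpen (U : Set GQ) ∧ ∀ g ∈ U,
      ‖(s g : Matrix (Fin 2) (Fin 2) E) 0 0 - (s g : Matrix (Fin 2) (Fin 2) E) 1 1‖ < 1)
    (S : Finset ℕ) (hS : ∀ p : ℕ, p.Prime → p ∉ S → ∀ P : Ideal (𝓞 Qb), P.IsPrime →
      (p : 𝓞 Qb) ∈ P → ∀ g : GQ, (∀ x : 𝓞 Qb, g • x - x ∈ P) →
      ‖(s g : Matrix (Fin 2) (Fin 2) E) 0 0 - (s g : Matrix (Fin 2) (Fin 2) E) 1 1‖ < 1) :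
    ∃ (N₀ : ℕ) (_ : NeZero N₀), N₀ ≠ 1 ∧ Lev s N₀ := by
  let r0 := intg s hi
  let π := residue (Ob E)
  have two : (2 : ResidueField (Ob E)) = 0 := CharTwo.two_eq_zero
  have z10 : ∀ g, π (r0 g 1 0) = 0 := fun g => res_Ob.2 (lo g)
  let a : GQ →* ResidueField (Ob E) :=
    { toFun := fun g => π (r0 g 0 0)
      map_one' := by rw [map_one, Matrix.one_apply_eq, map_one]
      map_mul' := fun g h => by
        rw [map_mul r0, Matrix.mul_apply, Fin.sum_univ_two, map_add, map_mul, map_mul, z10,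
          mul_zero, add_zero] }
  have ea : ∀ g, a g = π (r0 g 0 0) := fun _ => rfl
  have edt : ∀ g, ((r0 g).det : E) = (s g : Matrix (Fin 2) (Fin 2) E).det := fun g => by
    rw [Matrix.det_fin_two, Matrix.det_fin_two]; rfl
  have etr : ∀ g, ((r0 g).trace : E) = (s g : Matrix (Fin 2) (Fin 2) E).trace := fun g => by
    rw [Matrix.trace_fin_two, Matrix.trace_fin_two]; rfl
  have hd1 : ∀ g, π (r0 g).det = 1 := fun g => by
    have h1 : π ((r0 g).det - 1) = 0 := res_Ob.2 (by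
      rw [AddSubgroupClass.coe_sub, edt]; exact hD g)
    rwa [map_sub, map_one, sub_eq_zero] at h1
  have had : ∀ g, a g * π (r0 g 1 1) = 1 := fun g => by
    have h1 := hd1 g
    rwa [Matrix.det_fin_two, map_sub, map_mul, map_mul, z10, mul_zero, sub_zero] at h1
  have one : ∀ g, a g = π (r0 g 1 1) → a g = 1 := fun g h => by
    have h1 := had g
    rw [← h] at h1
    have h2 : (a g - 1) ^ 2 = 0 := by linear_combination h1 + (1 - a g) * two
    exact sub_eq_zero.1 (pow_eq_zero_iff two_ne_zero |>.1 h2)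
  have near1 : ∀ g, ‖(s g : Matrix (Fin 2) (Fin 2) E) 0 0 -
      (s g : Matrix (Fin 2) (Fin 2) E) 1 1‖ < 1 → a g = 1 := fun g h => one g (by
    have h1 : π (r0 g 0 0 - r0 g 1 1) = 0 := res_Ob.2 h
    rwa [map_sub, sub_eq_zero] at h1)
  obtain ⟨T, hT⟩ := teich (E := E)
  let χ : GQ →* Eˣ := (((Ob E).subtype : Ob E →* E).comp (T.comp a.toHomUnits)).toHomUnits
  have hχ : ∀ g, ((χ g : Eˣ) : E) = (T (a.toHomUnits g) : Ob E) := fun _ => rfl
  have χ1 : ∀ g, a g = 1 → χ g = 1 := fun g h => Units.ext (by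
    rw [hχ, show a.toHomUnits g = 1 from Units.ext h, map_one]
    rfl)
  have hc : Continuous χ := by
    obtain ⟨U, hU, h1⟩ := ho
    refine continuous_of_continuousAt_one χ (continuousAt_const.congr (f := fun _ => 1) ?_)
    filter_upwards [hU.mem_nhds (one_mem _)] with g hg
    exact (χ1 g (near1 g (h1 g hg))).symm
  obtain ⟨m, iNZ, ψf, ψ2, hm, -, hdec, -, h2, hram⟩ := decomp C.GCHF χ hc S
    fun p hp hpS P hP hpP g hg => χ1 g (near1 g (hS p hp hpS P hP hpP g hg))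
  let ω : (ZMod m)ˣ →* Ob E :=
    { toFun := fun u => ⟨((ψf u : Eˣ) : E), mem_Ob.2 (norm_char ψf u).le⟩
      map_one' := Subtype.ext (by simp)
      map_mul' := fun u v => Subtype.ext (by simp) }
  have hω : ∀ g, π (ω (cyc m g)) = a g := fun g => by
    have h1 : π (T (a.toHomUnits g) - ω (cyc m g)) = 0 := res_Ob.2 (by
      change ‖((χ g : Eˣ) : E) - ((ψf (cyc m g) : Eˣ) : E)‖ < 1
      rw [hdec, Units.val_mul, mul_comm]
      exact near_mul (h2 g) (norm_char ψf _).le)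
    rw [map_sub, sub_eq_zero, hT] at h1
    exact h1.symm
  haveI : NeZero (m * m) := ⟨mul_ne_zero (NeZero.ne m) (NeZero.ne m)⟩
  have dv : ∀ {l : ℕ}, l.Prime → l ∣ m * m → l ∣ m := fun hl h =>
    ((Nat.Prime.dvd_mul hl).1 h).elim id id
  refine ⟨m * m, inferInstance, fun h => ?_, hm.mul hm, ?_, fun l hl hd hu => ?_,
    fun l hl hu hd => ?_⟩
  · obtain rfl : m = 1 := Nat.eq_one_of_mul_eq_one_right h
    obtain ⟨g, hg⟩ := reg
    have h1 := hω g
    rw [Subsingleton.elim (cyc 1 g) 1, map_one, map_one] at h1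
    have h3 := had g
    rw [← h1, one_mul] at h3
    have h4 : π (r0 g 0 0 - r0 g 1 1) = 0 := by rw [map_sub, ← ea, ← h1, h3, sub_self]
    exact (res_Ob.1 h4).ne hg
  · obtain ⟨co⟩ := V.emb E (Ob E) fun x => mem_Ob
    let j : Ob E →+* ℂ := V.Co.j
    let ν : (ZMod m)ˣ →* ℂˣ := ((j : Ob E →* ℂ).comp ω).toHomUnits
    have hν : ∀ u, ((ν u : ℂˣ) : ℂ) = j (ω u) := fun _ => rfl
    have hν' : ∀ u, ((ν⁻¹ u : ℂˣ) : ℂ) = j (ω u⁻¹) := fun u => by
      rw [← hν, map_inv]
      rfl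
    have pr : ∀ u, j (ω u) * j (ω u⁻¹) = 1 := fun u => by
      rw [← map_mul, ← map_mul, mul_inv_cancel, map_one, map_one]
    obtain ⟨f, f0, hf⟩ := Eis.eis m m 3 (by norm_num) (MulChar.ofUnitHom ν)
      (MulChar.ofUnitHom ν⁻¹) (by
      have e : (-1 : ZMod m) = ((-1 : (ZMod m)ˣ) : ZMod m) := by simp
      rw [e, MulChar.ofUnitHom_coe, MulChar.ofUnitHom_coe, hν, hν', pr]
      norm_num)
    refine ⟨4, fun φ hφ X hX => ?_⟩
    have hl : ∀ l : PA (m * m), (cyc m (φ l) : ZMod m) = l.1 := fun l =>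
      cyc_frob l.2.1 (fun h => l.2.2 ((h.mul_left m).mul_left 2)) (hφ l)
    let b : Gen (m * m) → Ob E := Sum.elim
      (fun l => ω (cyc m (φ l)) + ω (cyc m (φ l))⁻¹ * (l.1 : Ob E) ^ 3) fun l => (l.1 : Ob E) ^ 3
    let c : Gen (m * m) → Ob E := Sum.elim (fun l => (r0 (φ l)).trace) fun l => (r0 (φ l)).det
    have k1 : ∀ Y : G.Wd (m * m), G.sg (m * m) 3 Y f = j (FreeAlgebra.lift ℤ b Y) • f := by
      intro Y
      induction Y using FreeAlgebra.induction with
      | grade0 n =>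
        rw [AlgHom.commutes, AlgHom.commutes, eq_intCast, eq_intCast, map_intCast,
          Module.End.intCast_apply, Int.cast_smul_eq_zsmul]
      | grade1 y =>
        rw [G.sg, FreeAlgebra.lift_ι_apply, FreeAlgebra.lift_ι_apply]
        rcases y with l | l
        · change H783.Tl (3 + 1) l f =
            j (ω (cyc m (φ l)) + ω (cyc m (φ l))⁻¹ * (l.1 : Ob E) ^ 3) • f
          rw [(hf l).1, ← hl, MulChar.ofUnitHom_coe, MulChar.ofUnitHom_coe, hν, hν', map_add,
            map_mul, map_pow, map_natCast]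
        · change ((l.1 : ℂ) ^ 3) • H783.dia (3 + 1) l f = j ((l.1 : Ob E) ^ 3) • f
          rw [(hf l).2, ← hl, MulChar.ofUnitHom_coe, MulChar.ofUnitHom_coe, hν, hν', pr, one_smul,
            map_pow, map_natCast]
      | mul p q hp hq =>
        rw [map_mul, map_mul, map_mul, Module.End.mul_apply, hq, map_smul, hp, smul_smul,
          mul_comm (j _)]
      | add p q hp hq => rw [map_add, map_add, map_add, LinearMap.add_apply, hp, hq, add_smul]
    have k2 : FreeAlgebra.lift ℤ b X = 0 := by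
      have h1 := k1 X
      rw [hX 3 (by norm_num), LinearMap.zero_apply, eq_comm, smul_eq_zero] at h1
      exact V.Co.inj ((h1.resolve_right f0).trans (map_zero j).symm)
    have k3 : ∀ l : PA (m * m), π ((l.1 : Ob E) ^ 3) = 1 := fun l => by
      obtain ⟨k, hk⟩ := l.2.1.odd_of_ne_two fun e => l.2.2 (by rw [e]; exact dvd_mul_right _ _)
      rw [map_pow, map_natCast, hk]
      push_cast
      rw [two, zero_mul, zero_add, one_pow]
    have k4 : π (FreeAlgebra.lift ℤ c X) = 0 := by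
      rw [← map_zero π, ← k2, P022E.Br.lift_map, P022E.Br.lift_map]
      congr 2
      funext y
      rcases y with l | l
      · change π (r0 (φ l)).trace = π (ω (cyc m (φ l)) + ω (cyc m (φ l))⁻¹ * (l.1 : Ob E) ^ 3)
        rw [map_add, map_mul, k3, mul_one, ← map_inv, hω, hω, Matrix.trace_fin_two, map_add, ← ea]
        congr 1
        calc π (r0 (φ l) 1 1) = a (φ l)⁻¹ * (a (φ l) * π (r0 (φ l) 1 1)) := by
              rw [← mul_assoc, ← map_mul, inv_mul_cancel, map_one, one_mul]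
          _ = _ := by rw [had, mul_one]
      · change π (r0 (φ l)).det = π ((l.1 : Ob E) ^ 3)
        rw [hd1, k3]
    refine lt_of_eq_of_lt (congrArg norm ?_) (res_Ob.1 k4)
    refine Eq.trans ?_ (P022E.Br.lift_map (Ob E).subtype c X).symm
    congr 2
    funext y
    rcases y with l | l
    · exact (etr _).symm
    · exact (edt _).symm
  · obtain ⟨P, hP, hp, g, hg, hne⟩ := hram l hl (dv hl hd)
    refine hne (χ1 g ?_)
    have h1 : π (r0 g 0 0 - 1) = 0 := res_Ob.2 (hu g ⟨P, hP, hp, hg⟩ 0 0)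
    rwa [map_sub, map_one, sub_eq_zero] at h1
  · obtain ⟨P, hP, hp, g, hg, hne⟩ := hram l hl (dv hl ((dvd_pow_self l two_ne_zero).trans hd))
    refine hne (χ1 g (one g ?_))
    have h1 : π (r0 g).trace = 0 := res_Ob.2 (by
      rw [etr]
      exact hu P hP hp g fun x hx => by simpa using P.add_mem (hg x) hx)
    rw [Matrix.trace_fin_two, map_add, ← ea] at h1
    linear_combination h1 - π (r0 g 1 1) * two

/-- **TH** for all twists -/
theorem thT {r : GQ →* GL (Fin 2) E} (hc : Continuous r)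
    (hS : {p : ℕ | p.Prime ∧ ¬ UnrAt r p}.Finite)
    (hi : ∀ g i j, ‖(r g : Matrix (Fin 2) (Fin 2) E) i j‖ ≤ 1)
    (lo : ∀ g, ‖(r g : Matrix (Fin 2) (Fin 2) E) 1 0‖ < 1)
    (reg : ∃ g, ‖(r g : Matrix (Fin 2) (Fin 2) E) 0 0 - (r g : Matrix (Fin 2) (Fin 2) E) 1 1‖ = 1)
    (μ : GQ →* Eˣ) (hμ : ∀ g, ‖(μ g : E)‖ = 1) (hD : DetOne (tws μ r)) :
    ∃ (N₀ : ℕ) (_ : NeZero N₀), N₀ ≠ 1 ∧ Lev (tws μ r) N₀ := by
  have e : ∀ g i j, ‖(tws μ r g : Matrix (Fin 2) (Fin 2) E) i j‖ =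
      ‖(r g : Matrix (Fin 2) (Fin 2) E) i j‖ := fun g i j => by
    rw [tws_ent, norm_mul, hμ, one_mul]
  have e' : ∀ g, ‖(tws μ r g : Matrix (Fin 2) (Fin 2) E) 0 0 -
      (tws μ r g : Matrix (Fin 2) (Fin 2) E) 1 1‖ =
      ‖(r g : Matrix (Fin 2) (Fin 2) E) 0 0 - (r g : Matrix (Fin 2) (Fin 2) E) 1 1‖ := fun g => by
    rw [tws_ent, tws_ent, ← mul_sub, norm_mul, hμ, one_mul]
  refine th (fun g i j => (e g i j).trans_le (hi g i j)) (fun g => (e g 1 0).trans_lt (lo g))
    (reg.imp fun g h => (e' g).trans h) hD ?_ hS.toFinset fun p hp hpS P hP hpP g hg => ?_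
  · let f := (Ideal.Quotient.mk (maximalIdeal (Ob E) ^ 1)).mapMatrix.toMonoidHom.comp (intg r hi)
    refine ⟨W.kr f, W.kr_open (intg_open hc hi 1), fun g hg => ?_⟩
    have h1 : f g = 1 := (W.mem_kr f g).1 hg
    have h2 : intg r hi g 0 0 - intg r hi g 1 1 ∈ maximalIdeal (Ob E) ^ 1 :=
      Ideal.Quotient.eq.1 (((congrFun (congrFun h1 0) 0).trans (by simp)).trans
        (congrFun (congrFun h1 1) 1).symm)
    rw [pow_one, max_Ob] at h2
    rw [e']
    exact h2
  · have hur : UnrAt r p := by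
      by_contra hne
      exact hpS (hS.mem_toFinset.2 ⟨hp, hne⟩)
    rw [e', hur P hP hpP g hg]
    simp

end Vale.Agent.P022F.Th
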