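import Vale.Agent.P022D.End.Cg
import Vale.Agent.P022D.Top.Setup
import Vale.Agent.P022F.Sel.Defs
import Vale.Agent.P022F.St

/-!
P022F: the top of the proof for reducible residual representation (statements).
-/

set_option linter.all false

open Matrix NumberField

noncomputable section

namespace Vale.Agent.P022F.Top

open Vale.Agent.P022 Vale.Agent.P022.H790.CT Vale.Agent.P022D.Dk Vale.Agent.P022D.Top
  Vale.Agent.P022D.End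

section

variable {E : Type} [NontriviallyNormedField E]

/-- `r` is integral, residually upper triangular and not split, distinguished at the primes of
`S`, unobstructed -/
structure Red [IsUltrametricDist E] (r : GQ →* GL (Fin 2) E) (S : Finset ℕ) : Prop where
  int : ∀ g i j, ‖(r g : Matrix (Fin 2) (Fin 2) E) i j‖ ≤ 1
  lo : ∀ g, ‖(r g : Matrix (Fin 2) (Fin 2) E) 1 0‖ < 1
  reg : ∃ g, ‖(r g : Matrix (Fin 2) (Fin 2) E) 0 1‖ < 1 ∧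
    ‖(r g : Matrix (Fin 2) (Fin 2) E) 0 0 - (r g : Matrix (Fin 2) (Fin 2) E) 1 1‖ = 1
  up : ∃ g, ‖(r g : Matrix (Fin 2) (Fin 2) E) 0 1‖ = 1
  ds : ∀ l ∈ S, ¬ Uni r l
  ub : ∀ (K : Type) [Field K] (π : Ob E →+* K) (ψ : GQ → K),
    (∀ x : Ob E, ‖(x : E)‖ < 1 → π x = 0) →
    (∀ g, ∃ a d : Ob E, (a : E) = (r g : Matrix (Fin 2) (Fin 2) E) 0 0 ∧
      (d : E) = (r g : Matrix (Fin 2) (Fin 2) E) 1 1 ∧ π a = ψ g * π d) →
    Sel.Ub ψ S ∧ Sel.Ub (fun g => (ψ g)⁻¹) S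

end

/-- the theorem in fixed weight `i + 1` over fields with a primitive `n`-th root of unity; `S` is
a set of odd primes with product `R` -/
def COREn (R N₀ n : ℕ) [NeZero R] [NeZero N₀] : Prop :=
  ∀ (E : Type) [NontriviallyNormedField E] [NormedAlgebra ℚ_[2] E]
  [IsUltrametricDist E] [FiniteDimensional ℚ_[2] E] (r : GQ →* GL (Fin 2) E)
  (S : Finset ℕ) (ω : (ZMod R)ˣ →* Eˣ) (i : ℕ),
  Continuous r → OddRep r → Red r S → DetOne r → (∀ l ∈ S, l.Prime ∧ l ≠ 2) →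
  R = ∏ l ∈ S, l → (∀ p : ℕ, p.Prime → p ≠ 2 → p ∉ S → UnrAt r p) → Lev r N₀ → N₀ ≠ 1 → 1 ≤ i →
  DetW r R ω i → (∃ ζ : E, IsPrimitiveRoot ζ n) → LimR ((N₀ * R) ^ 2) r

/-- **CORE** -/
def CORE : Prop := ∀ (R N₀ : ℕ) [NeZero R] [NeZero N₀], ∃ n : ℕ, 0 < n ∧ COREn R N₀ n

/-- the theorem for integral models -/
def MAIN : Prop := ∀ (E : Type) [NontriviallyNormedField E] [NormedAlgebra ℚ_[2] E]
  [IsUltrametricDist E] [FiniteDimensional ℚ_[2] E] (r : GQ →* GL (Fin 2) E) (S : Finset ℕ),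
  Continuous r → OddRep r → (∀ p, p ∈ S ↔ p ≠ 2 ∧ p.Prime ∧ ¬ UnrAt r p) → Red r S → Q1Concl E r

/-- row RTW: twists and extension of the coefficients -/
def RTW : Prop := ∀ (E : Type) [NontriviallyNormedField E] [IsUltrametricDist E]
  (r : GQ →* GL (Fin 2) E) (S : Finset ℕ), Red r S →
  (∀ χ : GQ →* Eˣ, (∀ g, ‖(χ g : E)‖ = 1) → Red (tws χ r) S) ∧
  ∀ (E' : Type) [NontriviallyNormedField E'] [IsUltrametricDist E'] [NormedAlgebra E E'],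
    Red (bc E' r) S

/-- row EIS1: the constant terms give the Eisenstein system in weight four -/
def EIS1 : Prop := ∀ (N : ℕ) [NeZero N] (ω : (ZMod N)ˣ →* ℂˣ), Odd N → ω (-1) = 1 →
  ∀ X : P022D.G.Wd N, P022D.G.sg N 3 X = 0 →
    FreeAlgebra.lift ℤ (Sum.elim
      (fun ℓ : PA N => 1 + ((ω (ZMod.unitOfCoprime ℓ.1 ℓ.coprime) : ℂˣ) : ℂ) * (ℓ.1 : ℂ) ^ 3)
      (fun ℓ : PA N => ((ω (ZMod.unitOfCoprime ℓ.1 ℓ.coprime) : ℂˣ) : ℂ) * (ℓ.1 : ℂ) ^ 3) :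
        Gen N → ℂ) X = 0

/-- row TEI: the residual character is a Dirichlet character, ramified at the primes of its
level -/
def TEI : Prop := ∀ (E : Type) [NontriviallyNormedField E] [NormedAlgebra ℚ_[2] E]
  [IsUltrametricDist E] [FiniteDimensional ℚ_[2] E] (r : GQ →* GL (Fin 2) E) (S : Finset ℕ),
  Continuous r → Red r S → DetOne r → (∀ p : ℕ, p.Prime → p ≠ 2 → p ∉ S → UnrAt r p) →
  ∃ (m : ℕ) (_ : NeZero m) (μ : (ZMod m)ˣ →* Eˣ), Odd m ∧ m ≠ 1 ∧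
    (∀ g, ‖(r g : Matrix (Fin 2) (Fin 2) E) 0 0 - ((μ (H853.cyc m g) : Eˣ) : E)‖ < 1) ∧
    ∀ p : ℕ, p.Prime → p ∣ m → ∃ P : Ideal (𝓞 Qb), P.IsPrime ∧ (p : 𝓞 Qb) ∈ P ∧
      ∃ g : GQ, (∀ x : 𝓞 Qb, g • x - x ∈ P) ∧ ¬ ‖(r g : Matrix (Fin 2) (Fin 2) E) 0 0 - 1‖ < 1

/-- the base case -/
def EIS : Prop := ∀ (E : Type) [NontriviallyNormedField E] [NormedAlgebra ℚ_[2] E]
  [IsUltrametricDist E] [FiniteDimensional ℚ_[2] E] (r : GQ →* GL (Fin 2) E) (S : Finset ℕ),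
  Continuous r → Red r S → DetOne r → (∀ p : ℕ, p.Prime → p ≠ 2 → p ∉ S → UnrAt r p) →
  ∃ (N₀ : ℕ) (_ : NeZero N₀), N₀ ≠ 1 ∧ Lev r N₀

/-- row EIS2 -/
def EIS2 : Prop := EIS1 → TEI → EIS

/-- row END -/
def END : Prop := RTW → EIS → CORE → MAIN

/-- row MOD1: the lattice of Ribet -/
def MOD1 : Prop := ∀ (E : Type) [NontriviallyNormedField E] [NormedAlgebra ℚ_[2] E]
  [FiniteDimensional ℚ_[2] E] (r : GQ →* GL (Fin 2) E) (k : Type) [Field k] [CharP k 2]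
  (χ₁ χ₂ : GQ →* kˣ), Continuous r → St.AbsIrr r → St.IsEis r χ₁ χ₂ → χ₁ ≠ χ₂ →
  ∃ (E' : Type) (_ : NontriviallyNormedField E') (_ : NormedAlgebra ℚ_[2] E')
    (_ : NormedAlgebra E E') (_ : IsScalarTower ℚ_[2] E E') (_ : IsUltrametricDist E')
    (_ : FiniteDimensional ℚ_[2] E') (P : GL (Fin 2) E'),
    (∀ g i j, ‖(cj P (bc E' r) g : Matrix (Fin 2) (Fin 2) E') i j‖ ≤ 1) ∧
    (∀ g, ‖(cj P (bc E' r) g : Matrix (Fin 2) (Fin 2) E') 1 0‖ < 1) ∧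
    (∃ g, ‖(cj P (bc E' r) g : Matrix (Fin 2) (Fin 2) E') 0 1‖ < 1 ∧
      ‖(cj P (bc E' r) g : Matrix (Fin 2) (Fin 2) E') 0 0 -
        (cj P (bc E' r) g : Matrix (Fin 2) (Fin 2) E') 1 1‖ = 1) ∧
    ∃ g, ‖(cj P (bc E' r) g : Matrix (Fin 2) (Fin 2) E') 0 1‖ = 1

/-- row MOD2: transfer of the residual hypotheses; `r'` has the traces, the determinants and the
kernel of `r` -/
def MOD2 : Prop := ∀ (E : Type) [NontriviallyNormedField E] [NormedAlgebra ℚ_[2] E]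
  [FiniteDimensional ℚ_[2] E] (r : GQ →* GL (Fin 2) E) (k : Type) [Field k] [CharP k 2]
  (χ₁ χ₂ : GQ →* kˣ) (E' : Type) [NontriviallyNormedField E'] [NormedAlgebra ℚ_[2] E']
  [NormedAlgebra E E'] [IsUltrametricDist E'] [FiniteDimensional ℚ_[2] E']
  (r' : GQ →* GL (Fin 2) E') (S : Finset ℕ), St.IsEis r χ₁ χ₂ → χ₁ ≠ χ₂ →
  (∀ p : ℕ, p.Prime → p ≠ 2 → ¬ St.UnrAt r p → ∃ g, St.IsDec p g ∧ χ₁ g ≠ χ₂ g) →
  St.Unob r (χ₁ * χ₂⁻¹) → St.Unob r (χ₂ * χ₁⁻¹) →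
  (∀ p, p ∈ S ↔ p ≠ 2 ∧ p.Prime ∧ ¬ St.UnrAt r p) →
  (∀ g, (r' g : Matrix (Fin 2) (Fin 2) E').trace =
    algebraMap E E' (r g : Matrix (Fin 2) (Fin 2) E).trace) →
  (∀ g, (r' g : Matrix (Fin 2) (Fin 2) E').det =
    algebraMap E E' (r g : Matrix (Fin 2) (Fin 2) E).det) →
  (∀ g i j, ‖(r' g : Matrix (Fin 2) (Fin 2) E') i j‖ ≤ 1) →
  (∀ g, ‖(r' g : Matrix (Fin 2) (Fin 2) E') 1 0‖ < 1) →
  (∃ g, ‖(r' g : Matrix (Fin 2) (Fin 2) E') 0 1‖ < 1 ∧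
    ‖(r' g : Matrix (Fin 2) (Fin 2) E') 0 0 - (r' g : Matrix (Fin 2) (Fin 2) E') 1 1‖ = 1) →
  (∃ g, ‖(r' g : Matrix (Fin 2) (Fin 2) E') 0 1‖ = 1) → Red r' S

end Vale.Agent.P022F.Top
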