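import Vale.Agent.P022F.Top.Spec
import Vale.Agent.P022F.Top.Nf
import Vale.Agent.P022F.Top.Th

/-!
P022F: the statement for residually reducible representations from the theorem for integral
models.
-/

set_option linter.all false

open Matrix IsLocalRing

noncomputable section

namespace Vale.Agent.P022F.Top

open Vale.Agent.P022 Vale.Agent.P022D.Dk Vale.Agent.P022D.End
open Vale.Agent.P022D.Top (Ob mem_Ob norm_Ob max_Ob res_Ob unit_Ob)

theorem ubDown {F K : Type} [Field F] [Field K] (j : F →+* K) {ψ : GQ → F} {S : Finset ℕ}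
    (h : Sel.Ub (fun g => j (ψ g)) S) : Sel.Ub ψ S := by
  intro f h1 h2 h3 ⟨c, hc, h4⟩ g0 h5 h6 g
  exact (map_eq_zero j).1 (h (fun g => j (f g)) (h1.comp j)
    (fun g g' => by rw [h2, map_add, map_mul])
    (fun l a1 a2 a3 s a4 => by rw [h3 l a1 a2 a3 s a4, map_zero])
    ⟨c, hc, by rw [h4, map_zero]⟩ g0 (fun e => h5 (j.injective (e.trans (map_one j).symm)))
    (by rw [h6, map_zero]) g)

theorem ubUp {F K : Type} [Field F] [Field K] (j : F →+* K) {ψ : GQ → F} {S : Finset ℕ}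
    (h : Sel.Ub ψ S) : Sel.Ub (fun g => j (ψ g)) S := by
  intro f h1 h2 h3 ⟨c, hc, h4⟩ g0 h5 h6 g
  letI : Algebra F K := j.toAlgebra
  rw [← Module.forall_dual_apply_eq_zero_iff F]
  intro φ
  have e : ∀ (a : F) (v : K), φ (j a * v) = a * φ v := fun a v => φ.map_smul a v
  exact h (fun g => φ (f g)) (h1.comp φ) (fun g g' => by rw [h2, map_add, e])
    (fun l a1 a2 a3 s a4 => by rw [h3 l a1 a2 a3 s a4, map_zero])
    ⟨c, hc, by rw [h4, map_zero]⟩ g0 (fun e => h5 ((congrArg j e).trans (map_one j)))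
    (by rw [h6, map_zero]) g

theorem ubOf {E k : Type} [NontriviallyNormedField E] [Field k] {r : GQ →* GL (Fin 2) E}
    {ψ : GQ →* kˣ} {S : Finset ℕ} (hS : ∀ l ∈ S, ¬ St.UnrAt r l) (h : St.Unob r ψ) :
    Sel.Ub (fun g => (ψ g : k)) S := by
  intro f h1 h2 h3 h4 g0 h5 h6 g
  obtain ⟨v, hv⟩ := h f h1 h2
    (fun p a1 a2 a3 P hP hp s hs => h3 p a1 a2 (fun e => hS p e a3) s ⟨P, hP, hp, hs⟩) h4
  have h7 := hv g0
  rw [h6, eq_comm, mul_eq_zero, sub_eq_zero] at h7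
  rw [hv, h7.resolve_left h5, mul_zero]

/-- from the normal form -/
theorem redOf {E k : Type} [NontriviallyNormedField E] [NormedAlgebra ℚ_[2] E]
    [IsUltrametricDist E] [Field k] [CharP k 2] {s : GQ →* GL (Fin 2) E}
    {ι : Ob E →+* AlgebraicClosure k} {χ₁ χ₂ : GQ →* kˣ} {g₀ : GQ} {S : Finset ℕ}
    (h : Nf.NF s ι (fun g => algebraMap k _ (χ₁ g : k)) (fun g => algebraMap k _ (χ₂ g : k)) g₀)
    (hne : χ₁ g₀ ≠ χ₂ g₀) (hd : ∀ l ∈ S, ∃ g, St.IsDec l g ∧ χ₁ g ≠ χ₂ g)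
    (h1 : Sel.Ub (fun g => (((χ₁ * χ₂⁻¹) g : kˣ) : k)) S)
    (h2 : Sel.Ub (fun g => (((χ₂ * χ₁⁻¹) g : kˣ) : k)) S) : Red s S := by
  let x : GQ → Ob E := fun g => ⟨_, mem_Ob.2 (h.int g 0 0)⟩
  let y : GQ → Ob E := fun g => ⟨_, mem_Ob.2 (h.int g 1 1)⟩
  have hx : ∀ g, ι (x g) = algebraMap k _ (χ₁ g : k) := fun g => h.c0 g _ rfl
  have hy : ∀ g, ι (y g) = algebraMap k _ (χ₂ g : k) := fun g => h.c1 g _ rfl
  have inj := (algebraMap k (AlgebraicClosure k)).injective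
  have hne' : (χ₁ g₀ : k) ≠ χ₂ g₀ := fun e => hne (Units.ext e)
  refine ⟨h.int, h.lo, ⟨g₀, by rw [h.dg.1, norm_zero]; exact one_pos, ?_⟩,
    h.up.imp fun g e => by rw [e, norm_one], fun l hl hu => ?_, ?_⟩
  · refine le_antisymm (norm_Ob (x g₀ - y g₀)) (not_lt.1 fun e => hne' (inj ?_))
    have h3 := (Nf.zero_iff ι (x g₀ - y g₀)).2 e
    rwa [map_sub, hx, hy, sub_eq_zero] at h3
  · obtain ⟨g, ⟨P, hP, hp, hg⟩, h3⟩ := hd l hl
    have h4 := hu P hP hp g hg
    rw [Matrix.trace_fin_two] at h4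
    have h5 := (Nf.zero_iff ι (x g + y g)).2 h4
    rw [map_add, hx, hy, ← map_add, map_eq_zero, CharTwo.add_eq_zero] at h5
    exact h3 (Units.ext h5)
  · intro K _ π ψ hπ hψ
    haveI : IsLocalHom ι := ⟨fun a ha => by
      by_contra hn
      exact ha.ne_zero ((Nf.zero_iff ι a).2 (max_Ob.1 hn))⟩
    haveI : IsLocalHom π := ⟨fun a ha => by
      by_contra hn
      exact ha.ne_zero (hπ a (max_Ob.1 hn))⟩
    let θ : GQ → ResidueField (Ob E) := fun g => residue _ (x g) / residue _ (y g)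
    have e1 : ∀ g, ResidueField.lift ι (θ g) =
        algebraMap k (AlgebraicClosure k) (((χ₁ * χ₂⁻¹) g : kˣ) : k) := fun g => by
      rw [MonoidHom.mul_apply, MonoidHom.inv_apply, Units.val_mul, Units.val_inv_eq_inv_val,
        ← div_eq_mul_inv, map_div₀, map_div₀, ← hx, ← hy]
      rfl
    have e2 : ∀ g, ResidueField.lift ι (θ g)⁻¹ =
        algebraMap k (AlgebraicClosure k) (((χ₂ * χ₁⁻¹) g : kˣ) : k) := fun g => by
      rw [map_inv₀, e1, ← map_inv₀, ← Units.val_inv_eq_inv_val]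
      refine congrArg (fun u : kˣ => algebraMap k (AlgebraicClosure k) (u : k)) ?_
      change (χ₁ g * (χ₂ g)⁻¹)⁻¹ = χ₂ g * (χ₁ g)⁻¹
      rw [_root_.mul_inv_rev, inv_inv]
    have e3 : ∀ g, ResidueField.lift π (θ g) = ψ g := fun g => by
      obtain ⟨a, d, a1, a2, a3⟩ := hψ g
      obtain rfl : a = x g := Subtype.ext a1
      obtain rfl : d = y g := Subtype.ext a2
      have h0 : π (y g) ≠ 0 := by
        refine (IsUnit.map π (isUnit_of_map_unit ι _ ?_)).ne_zero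
        rw [hy]
        exact (χ₂ g).isUnit.map _
      rw [map_div₀, div_eq_iff (by exact h0)]
      exact a3
    have a1 := ubUp (algebraMap k (AlgebraicClosure k)) h1
    have a2 := ubUp (algebraMap k (AlgebraicClosure k)) h2
    simp only [← e1] at a1
    simp only [← e2] at a2
    have b1 := ubUp (ResidueField.lift π) (ubDown (ResidueField.lift ι) a1)
    have b2 := ubUp (ResidueField.lift π) (ubDown (ResidueField.lift ι) a2)
    simp only [map_inv₀, e3] at b1 b2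
    exact ⟨b1, b2⟩

/-- the base case -/
theorem eisC : EIS := by
  intro E _ _ _ _ r S hc hR hD hu
  have e : H790.CT.tws 1 r = r := MonoidHom.ext fun g => Units.ext (by
    ext i j
    rw [tws_ent]
    simp)
  have h := Th.thT hc ((insert 2 S).finite_toSet.subset fun p hp => by
      by_contra hn
      rw [Finset.coe_insert, Set.mem_insert_iff, not_or] at hn
      exact hp.2 (hu p hp.1 hn.1 hn.2))
    hR.int hR.lo (hR.reg.imp fun _ h => h.2) 1 (fun g => by simp) (by rwa [e])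
  rwa [e] at h

/-- **the residually reducible unobstructed case** -/
theorem finalF (hM : MAIN) (E : Type) [NontriviallyNormedField E] [NormedAlgebra ℚ_[2] E]
    [FiniteDimensional ℚ_[2] E] (r : GQ →* GL (Fin 2) E) (hc : Continuous r)
    (ho : St.OddRep r) (hi : St.AbsIrr r) (hS : {p : ℕ | p.Prime ∧ ¬ St.UnrAt r p}.Finite)
    (k : Type) [Field k] [CharP k 2] (χ₁ χ₂ : GQ →* kˣ) (hr : St.IsEis r χ₁ χ₂)
    (hne : χ₁ ≠ χ₂)
    (hd : ∀ p : ℕ, p.Prime → p ≠ 2 → ¬ St.UnrAt r p → ∃ g, St.IsDec p g ∧ χ₁ g ≠ χ₂ g)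
    (h1 : St.Unob r (χ₁ * χ₂⁻¹)) (h2 : St.Unob r (χ₂ * χ₁⁻¹)) : St.Q1Concl r := by
  classical
  obtain ⟨O, π, hO, ht⟩ := hr
  obtain ⟨g₀, hg₀⟩ : ∃ g, χ₁ g ≠ χ₂ g := by
    by_contra hn
    push Not at hn
    exact hne (MonoidHom.ext hn)
  let j := algebraMap k (AlgebraicClosure k)
  obtain ⟨E', i1, i2, i3, i4, i5, i6, P, ι, hP⟩ := Nf.model hc hi O (j.comp π) hO
    ((j : k →* _).comp ((Units.coeHom k).comp χ₁)) ((j : k →* _).comp ((Units.coeHom k).comp χ₂))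
    (fun g => by
      obtain ⟨t, d, a1, a2, a3, a4⟩ := ht g
      refine ⟨t, d, a1, a2, ?_, ?_⟩
      · rw [RingHom.comp_apply, a3, map_add]
        rfl
      · rw [RingHom.comp_apply, a4, map_mul]
        rfl) (g₀ := g₀) fun e => hg₀ (Units.ext (j.injective e))
  have hm : ∀ p, p ∈ hS.toFinset.erase 2 ↔ p ≠ 2 ∧ p.Prime ∧ ¬ St.UnrAt r p := fun p => by
    rw [Finset.mem_erase, hS.mem_toFinset]
    rfl
  have hR : Red (cj P (bc E' r)) (hS.toFinset.erase 2) := redOf hP hg₀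
    (fun l hl => hd l ((hm l).1 hl).2.1 ((hm l).1 hl).1 ((hm l).1 hl).2.2)
    (ubOf (fun l h => ((hm l).1 h).2.2) h1) (ubOf (fun l h => ((hm l).1 h).2.2) h2)
  refine St.q1Concl r (q1_desc r P (hM E' _ _ (cj_cont P (bc_cont E' hc))
    ((cj_odd _ _).2 (H20.bc_odd.2 ho)) (fun p => ?_) hR))
  rw [cj_unrAt, H20.bc_unrAt]
  exact hm p

end Vale.Agent.P022F.Top
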