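import Vale.Agent.P022F.Top.CoreC
import Vale.Agent.P022F.Top.Fin
import Vale.Agent.P022F.Top.EndH47
import Vale.Agent.P022F.Tn.L2
import Vale.Agent.P022F.Fm.Forms

/-!
P022F: the unobstructed reducible case, all rows put together.
-/

set_option linter.all false

noncomputable section

namespace Vale.Agent.P022F.Top

theorem mainAll : MAIN := EndH47.endF (coreC Tn.l2 Fm.formsC)

end Vale.Agent.P022F.Top
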