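import Vale.Agent.P022D.Top.Ram
import Vale.Agent.P022F.Loc.Defs

/-!
P022F: ramification of the residual representation.
-/

set_option linter.all false

open Matrix NumberField

noncomputable section

namespace Vale.Agent.P022F.Top

open Vale.Agent.P022 Vale.Agent.P022D Vale.Agent.P022D.R
open Vale.Agent.P027M.S (mx)
open Vale.Agent.P022D.Top (conjI)
open Vale.Agent.P022F.Loc (Pl)

variable {O F : Type} [CommRing O] [IsLocalRing O] [Field F] [CharP F 2] {S : Dat O F} {L : Pl O}

/-- at a unipotent prime the ramification is seen on `τ` -/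
theorem tau_ne (hL : L.Ok S) {l : ℕ} (hl : l ∈ L.C) {σ : GQ} (hσ : G.Inert l σ)
    (h1 : S.rb σ ≠ 1) : mx S.rb (L.τ l) ≠ 1 := by
  intro hτ
  have hl' := Finset.mem_union_right L.W hl
  obtain ⟨P, hP, hlP, h⟩ := hσ
  obtain ⟨c, hc⟩ := conjI (hL.pr l hl').1 hP hlP (hL.hP l hl').1 (hL.hP l hl').2 h
  obtain ⟨N, hN⟩ := (hL.tm l hl').tame _ S.rb hL.dh.opn
  obtain ⟨k, p, hp, e⟩ := hN.cyc _ hc
  obtain ⟨m, ⟨m, rfl⟩, hm⟩ := hN.odd p hp
  have h2 : S.rb p ^ 2 = 1 := by
    have t := hL.uni l hl p (hN.ID (hN.NI hp))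
    have d := hL.det p
    rw [Matrix.trace_fin_two] at t
    rw [Matrix.det_fin_two] at d
    have two : (2 : F) = 0 := CharTwo.two_eq_zero
    apply Units.ext
    change (mx S.rb p) ^ 2 = 1
    ext i j
    fin_cases i <;> fin_cases j <;> simp [pow_two, Matrix.mul_apply, Fin.sum_univ_two]
    · linear_combination mx S.rb p 0 0 * t - d - two
    · linear_combination mx S.rb p 0 1 * t
    · linear_combination mx S.rb p 1 0 * t
    · linear_combination mx S.rb p 1 1 * t - d - two
  rw [pow_succ, pow_mul, h2, one_pow, one_mul] at hm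
  have h3 := congrArg S.rb e
  rw [map_mul S.rb (L.τ l ^ k), hm, map_pow, show S.rb (L.τ l) = 1 from Units.ext hτ, one_pow,
    one_mul, map_mul, map_mul, map_inv, inv_mul_eq_one, eq_comm, mul_eq_right] at h3
  exact h1 h3

end Vale.Agent.P022F.Top
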