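import Vale.Agent.P022F.Top.Set0
import Vale.Agent.P022F.Top.Spec
import Vale.Agent.P022F.Sel.Defs

/-!
P022F: the integral model of a representation with non solvable residual image.
-/

set_option linter.all false

open Matrix IsLocalRing

noncomputable section

namespace Vale.Agent.P022F.Top

open Vale.Agent.P022
open Vale.Agent.P027M.S (mx)
open Vale.Agent.P022D.Top (Ob DetOne res_Ob)

variable {E : Type} [NontriviallyNormedField E] [IsUltrametricDist E]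
  [NormedAlgebra ℚ_[2] E] [FiniteDimensional ℚ_[2] E]

/-- **SETUP** -/
theorem setup {r : GQ →* GL (Fin 2) E} {S₀ : Finset ℕ} (hc : Continuous r) (hM : Red r S₀)
    (hd : DetOne r) (T : Finset ℕ) (hT : T.Nonempty) 
    (hS : ∀ l : ℕ, l.Prime → l ≠ 2 → l ∉ S₀ → l ∉ T) :
    ∃ S r', Su0 r T S r' ∧ (∀ H, Sel.Dh S.rb H) ∧
      Sel.Ub (fun g => mx S.rb g 0 0 / mx S.rb g 1 1) T ∧
      Sel.Ub (fun g => mx S.rb g 1 1 / mx S.rb g 0 0) T := by
  obtain ⟨g0, a1, a3⟩ := hM.reg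
  obtain ⟨ga, b1⟩ := hM.up
  obtain ⟨S, r', h⟩ := setup0 hc hM.int a1 hM.lo a3 b1 hd T hT
  have hdet : ∀ g, mx S.rb g 0 0 * mx S.rb g 1 1 = 1 := fun g => by
    have := h.det g
    rwa [Matrix.det_fin_two, h.tri, mul_zero, sub_zero] at this
  obtain ⟨u1, u2⟩ := hM.ub _ (residue (Ob E)) (fun g => mx S.rb g 0 0 / mx S.rb g 1 1)
    (fun x hx => res_Ob.2 hx) fun g => by
      obtain ⟨a, a1, a2⟩ := h.ent g 0 0
      obtain ⟨d, d1, d2⟩ := h.ent g 1 1
      refine ⟨a, d, a1, d1, ?_⟩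
      rw [a2, d2, div_mul_cancel₀ _ (right_ne_zero_of_mul_eq_one (hdet g))]
  simp only [inv_div] at u2
  have mono : ∀ {ψ : GQ → ResidueField (Ob E)}, Sel.Ub ψ S₀ → Sel.Ub ψ T :=
    fun u f f1 f2 f3 => u f f1 f2 fun l l1 l2 l3 => f3 l l1 l2 (hS l l1 l2 l3)
  refine ⟨S, r', h, fun H => ⟨h.opn, h.det, fun g => ⟨mx S.rb g 0 0, mx S.rb g 1 1,
    Matrix.trace_fin_two _, by rw [h.det, hdet]⟩, h.tri⟩, mono u1, mono u2⟩

end Vale.Agent.P022F.Top
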