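import Vale.Agent.P022D.Top.Core
import Vale.Agent.P022F.Top.Su
import Vale.Agent.P022F.Fm.Rows

/-!
P022F: the theorem in fixed weight from the patching argument and the forms side.
-/

set_option linter.all false

open Matrix NumberField IsLocalRing

noncomputable section

namespace Vale.Agent.P022F.Top

open Vale.Agent.P022 Vale.Agent.P022D.V Vale.Agent.P022F.Fm
open Vale.Agent.P022D.Top (Ob mem_Ob max_Ob dvd_Ob LimR sys nn nn_pos ex_PA)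
open Vale.Agent.P022D.As (Tg tt dd ev0)
open Vale.Agent.P022F.As (Out2)
open Vale.Agent.P022F.Loc (Pl)
open Vale.Agent.P027M.M (ze)

/-- **OUT** -/
theorem limE {E : Type} [NontriviallyNormedField E] [IsUltrametricDist E] [Co (Ob E)]
    (hC : CLAD (Ob E)) {r : GQ →* GL (Fin 2) E} {L : Pl (Ob E)}
    (htr : ∀ g, ((L.r g).trace : E) = (r g : Matrix (Fin 2) (Fin 2) E).trace)
    (hdt : ∀ g, ((L.r g).det : E) = (r g : Matrix (Fin 2) (Fin 2) E).det)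
    {M N' i : ℕ} [NeZero N'] (hM : Odd M) (h3 : 3 ≤ M) (hN : M ^ 2 ∣ N') {z : Ob E}
    (hz : Co.j z = ze M 1) {W : Type} [AddCommGroup W] [Module (Tg (Ob E)) W]
    (ι : W →+ FT M (RD (Ob E))) (hι : Function.Injective ι)
    (hX : ∀ w, ι w ∈ XD (Ob E) M i) (hW : ∀ w, ι w ∈ Wh (Ob E) _ M z)
    (hT : ∀ (p : ℕ) (u : (ZMod M)ˣ) φ, p.Prime → p ≠ 2 → (u : ZMod M) = p → IsFrob p φ →
      ∀ w, ι ((tt φ : Tg (Ob E)) • w) = T2 (Ob E) _ i p u (ι w))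
    (hS : ∀ (p : ℕ) (u : (ZMod M)ˣ) φ, p.Prime → p ≠ 2 → (u : ZMod M) = p → IsFrob p φ →
      ∀ w, ι ((dd φ : Tg (Ob E)) • w) = S2 (Ob E) _ i p u (ι w))
    {ϖ : Ob E} (hϖ : ¬ IsUnit ϖ) (h : Out2 ϖ L W) : LimR N' r := by
  haveI : NeZero (M ^ 2) := ⟨pow_ne_zero _ hM.pos.ne'⟩
  refine P022D.Fm.Out.raise hN fun φ hφ ε hε => ?_
  classical
  have hc : ∀ ℓ : PA (M ^ 2), Nat.Coprime ℓ.1 M := fun ℓ =>
    Nat.Coprime.coprime_dvd_right (dvd_pow_self M two_ne_zero) ℓ.coprime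
  have h2 : ∀ ℓ : PA (M ^ 2), ℓ.1 ≠ 2 := fun ℓ e => ℓ.2.2 (by rw [e]; exact dvd_mul_right _ _)
  let u : PA (M ^ 2) → (ZMod M)ˣ := fun ℓ => ZMod.unitOfCoprime ℓ.1 (hc ℓ)
  have hu : ∀ ℓ, (u ℓ : ZMod M) = ℓ.1 := fun ℓ => ZMod.coe_unitOfCoprime _ _
  have hL : P022D.V.Lev M M 1 M (M ^ 2) u 1 :=
    ⟨hM, (mul_one M).symm, Nat.coprime_one_right M, (mul_one _).symm, dvd_rfl, dvd_rfl, by
      rw [Nat.div_self hM.pos]; exact Nat.coprime_one_right M, hu, fun ℓ => ⟨0, by simp⟩,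
      fun ℓ => ⟨1 - (ℓ.1 : ZMod M), by simp⟩⟩
  have hn : ‖(ϖ : E)‖ < 1 := max_Ob.1 hϖ
  obtain ⟨j, hj⟩ := exists_pow_lt_of_lt_one hε hn
  obtain ⟨s, hs⟩ := h j
  choose K _ hK using fun w : W => (hC M M 1 M (M ^ 2) u 1 z i hL h3 hz).1 (ι w)
    ⟨⟨hX w, hW w⟩, fun g hg => by rw [P022D.Fm.Out.Bq_self hg, map_one, one_smul]; rfl⟩
  refine ⟨(s.biUnion K).sup id + 1, fun x hx => ?_⟩
  have h1 := hs (P022D.Fm.Out.wt (Ob E) φ x) fun v hv => hι (by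
    rw [P022D.Fm.Out.act u φ ι (fun ℓ => hT _ _ _ ℓ.2.1 (h2 ℓ) (hu ℓ) (hφ ℓ))
      (fun ℓ => hS _ _ _ ℓ.2.1 (h2 ℓ) (hu ℓ) (hφ ℓ)), map_zero]
    refine hK v x fun k hk f _ => ?_
    have : P022D.G.sg (M ^ 2) k x = 0 := hx k (Nat.lt_succ_of_le
      (Finset.le_sup (f := id) (Finset.mem_biUnion.2 ⟨v, hv, hk⟩)))
    rw [this, LinearMap.zero_apply])
  have e : ∀ x, FreeAlgebra.lift ℤ (sys r φ) x = (ev0 L.r (P022D.Fm.Out.wt (Ob E) φ x) : E) := by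
    intro x
    induction x using FreeAlgebra.induction with
    | grade0 n =>
      rw [AlgHom.commutes, AlgHom.commutes, eq_intCast, eq_intCast, map_intCast,
        Subring.coe_intCast]
    | grade1 s =>
      rw [P022D.Fm.Out.wt, FreeAlgebra.lift_ι_apply, FreeAlgebra.lift_ι_apply]
      rcases s with ℓ | ℓ
      · exact (htr (φ ℓ)).symm.trans (congrArg Subtype.val
          (MvPolynomial.eval₂Hom_X' _ _ _ : ev0 L.r (tt (φ ℓ)) = (L.r (φ ℓ)).trace)).symm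
      · exact (hdt (φ ℓ)).symm.trans (congrArg Subtype.val
          (MvPolynomial.eval₂Hom_X' _ _ _ : ev0 L.r (dd (φ ℓ)) = (L.r (φ ℓ)).det)).symm
    | mul p q hp hq => rw [map_mul, map_mul, map_mul, Subring.coe_mul, hp, hq]
    | add p q hp hq => rw [map_add, map_add, map_add, Subring.coe_add, hp, hq]
  rw [e]
  refine lt_of_le_of_lt (dvd_Ob.1 h1) ?_
  rwa [SubmonoidClass.coe_pow, norm_pow]

section

variable {O F : Type} [CommRing O] [IsLocalRing O] [Co O] [Field F] [CharP F 2] {U : Fm.Su O F}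
  [hC : ∀ l : U.L.C, Fact l.1.Prime] {r n : ℕ} {q : Fin r → ℕ} (P : Lq U r n q)

/-- the Whittaker module inside the tuples -/
def ioW : P.W0 →+ FT P.M (RD O) where
  toFun w := (((show P.X.Wh from w) : U.GG P.M) : AM O P.M)
  map_zero' := rfl
  map_add' _ _ := rfl

theorem ioW_inj : Function.Injective (ioW P) := fun _ _ h => Subtype.ext (Subtype.ext h)

theorem ioW_smul (p : As.Tg O) (w : P.W0) : ioW P (p • w) =
    ((P.ev p • ((show P.X.Wh from w) : U.GG P.M) : U.GG P.M) : AM O P.M) := rfl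

theorem oddN (hU : U.Ok) : Odd U.N ∧ 3 ≤ U.N := by
  have pc : ∀ l ∈ U.L.C, l.Prime := fun l hl => (hU.ok.pr l (Finset.mem_union_right _ hl)).1
  have dv : ∀ {l : ℕ}, l.Prime → (l ∣ U.N ↔ l ∈ U.L.W ∪ U.L.C) := fun {l} hl => by
    rw [Fm.Su.N, hl.dvd_mul, hU.NW l hl, Finset.mem_union, hU.NC]
    refine or_congr_right ⟨fun h => ?_, fun h => Finset.dvd_prod_of_mem _ h⟩
    obtain ⟨a, ha, e⟩ := (Prime.dvd_finsetProd_iff hl.prime _).1 h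
    rwa [(Nat.prime_dvd_prime_iff_eq hl (pc a ha)).1 e]
  have n0 : U.N ≠ 0 := mul_ne_zero hU.NW0 (by
    rw [hU.NC]
    exact Finset.prod_ne_zero_iff.2 fun a ha => (pc a ha).ne_zero)
  constructor
  · rw [← Nat.not_even_iff_odd, even_iff_two_dvd, dv Nat.prime_two]
    exact fun h => (hU.ok.pr 2 h).2 rfl
  · obtain ⟨l, hl⟩ : ∃ l, l ∈ U.L.W ∪ U.L.C := by
      rcases hU.W3 with ⟨l, h⟩ | ⟨l, h, -⟩
      · exact ⟨l, Finset.mem_union_left _ h⟩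
      · exact ⟨l, Finset.mem_union_right _ h⟩
    have h := hU.ok.pr l hl
    have h1 := h.1.two_le
    have h2 := Nat.le_of_dvd (Nat.pos_of_ne_zero n0) ((dv h.1).2 hl)
    have h3 := h.2
    omega

end

/-- **CORE** -/
theorem core (hL : As.L2) (hF : FORMS) (hC : ∀ (O : Type) [CommRing O] [Co O], CLAD O) :
    CORE := by
  intro R N₀ _ _
  refine ⟨nn R N₀, nn_pos (NeZero.ne R) (NeZero.ne N₀), ?_⟩
  intro E _ _ _ _ r S ω i hc ho hM hd hS hR hu hv h1 hi hW hz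
  obtain ⟨ζ, hζ⟩ := hz
  obtain ⟨co⟩ := P022D.V.emb E (Ob E) fun x => mem_Ob
  obtain ⟨U, hU, hϖ, hN, htr, hdt, ub1, ub2⟩ := exSu hc ho hM h1 hd hS hR hu hv hi hW hζ
  haveI : ∀ l : U.L.C, Fact l.1.Prime := fun l => ⟨(hU.ok.pr l.1 (Finset.mem_union_right _ l.2)).1⟩
  obtain ⟨Cc, P, hP⟩ := hF (Ob E) _ U hU
  have hO := hL (Ob E) _ U.ϖ U.S U.L _ _ _ _ _ _ hϖ
    ⟨hU.ok, hU.lam, fun l hl hT Q hQ hlQ s hs => hU.unr l hl hT s ⟨Q, hQ, hlQ, hs⟩, ub1, ub2⟩ hP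
  have eM : P.M = U.N := by rw [P.lv.eq, Fin.prod_univ_zero, mul_one]
  refine limE (hC _) htr hdt (M := P.M) (i := U.i) (z := U.z) (eM ▸ (oddN hU).1) (eM ▸ (oddN hU).2)
    (pow_dvd_pow_of_dvd (eM ▸ hN) 2) (eM ▸ hU.z) (ioW P) (ioW_inj P)
    (fun w => (show P.X.Wh from w).1.2.1) (fun w => (mem_of_sub (show P.X.Wh from w).2.1).1.2)
    (fun p u φ hp h2 hu hφ w => ?_) (fun p u φ hp h2 hu hφ w => ?_) hϖ.not_isUnit hO
  · obtain ⟨h, rfl⟩ := ex_PA hp h2 hu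
    rw [ioW_smul, show P.ev (As.tt φ) = P.X.t φ from MvPolynomial.eval₂Hom_X' _ _ _]
    exact P.ok.op.frT ⟨p, h⟩ φ hφ _
  · obtain ⟨h, rfl⟩ := ex_PA hp h2 hu
    rw [ioW_smul, show P.ev (As.dd φ) = P.X.d φ from MvPolynomial.eval₂Hom_X' _ _ _]
    exact P.ok.op.frS ⟨p, h⟩ φ hφ _

end Vale.Agent.P022F.Top
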