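import Vale.Agent.P022F.Top.Spec

/-!
P022F: twists and extension of the coefficients.
-/

set_option linter.all false

open Matrix NumberField

noncomputable section

namespace Vale.Agent.P022F.Top

open Vale.Agent.P022 Vale.Agent.P022.H790.CT Vale.Agent.P022D.Dk Vale.Agent.P022D.End
open Vale.Agent.P022D.Top hiding COREn CORE MAIN TH END

variable {E : Type} [NontriviallyNormedField E] [IsUltrametricDist E] {χ : GQ →* Eˣ}
  {r : GQ →* GL (Fin 2) E} {S : Finset ℕ}

theorem Red.tw (hn : ∀ g, ‖(χ g : E)‖ = 1) (h : Red r S) : Red (tws χ r) S := by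
  have e : ∀ g i j, ‖(tws χ r g : Matrix (Fin 2) (Fin 2) E) i j‖ =
      ‖(r g : Matrix (Fin 2) (Fin 2) E) i j‖ := fun g i j => by
    rw [tws_ent, norm_mul, hn, one_mul]
  refine ⟨fun g i j => ?_, fun g => ?_, ?_, ?_, fun l hl hu => h.ds l hl ?_, ?_⟩
  · rw [e]
    exact h.int g i j
  · rw [e]
    exact h.lo g
  · obtain ⟨g, a, c⟩ := h.reg
    refine ⟨g, by rwa [e], ?_⟩
    rw [tws_ent, tws_ent, ← mul_sub, norm_mul, hn, one_mul]
    exact c
  · obtain ⟨g, a⟩ := h.up
    exact ⟨g, by rwa [e]⟩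
  · intro P hP hl g hg
    have := hu P hP hl g hg
    rwa [tws_tr, norm_mul, hn, one_mul] at this
  · intro k _ π ψ hπ hψ
    refine h.ub k π ψ hπ fun g => ?_
    obtain ⟨a, d, ha, hd, q⟩ := hψ g
    let c : Ob E := ⟨χ g, mem_Ob.2 (hn g).le⟩
    let x : Ob E := ⟨_, mem_Ob.2 (h.int g 0 0)⟩
    let y : Ob E := ⟨_, mem_Ob.2 (h.int g 1 1)⟩
    have h0 : π c ≠ 0 := ((unit_Ob.2 (hn g) : IsUnit c).map π).ne_zero
    rw [show a = c * x from Subtype.ext (ha.trans (tws_ent _ _ _)),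
      show d = c * y from Subtype.ext (hd.trans (tws_ent _ _ _)), map_mul, map_mul,
      mul_left_comm] at q
    exact ⟨x, y, rfl, rfl, mul_left_cancel₀ h0 q⟩

variable (E' : Type) [NontriviallyNormedField E'] [IsUltrametricDist E'] [NormedAlgebra E E']

/-- the map between the rings of integers -/
def obMap : Ob E →+* Ob E' :=
  ((algebraMap E E').comp (Ob E).subtype).codRestrict (Ob E') fun a => mem_Ob.2 (by
    change ‖algebraMap E E' (a : E)‖ ≤ 1
    rw [norm_algebraMap']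
    exact norm_Ob a)

theorem obMap_coe (a : Ob E) : (obMap E' a : E') = algebraMap E E' (a : E) := rfl

theorem Red.ext (h : Red r S) : Red (bc E' r) S := by
  refine ⟨fun g i j => ?_, fun g => ?_, ?_, ?_, fun l hl hu => h.ds l hl ?_, ?_⟩
  · rw [bc_ent, norm_algebraMap']
    exact h.int g i j
  · rw [bc_ent, norm_algebraMap']
    exact h.lo g
  · obtain ⟨g, a, c⟩ := h.reg
    refine ⟨g, by rwa [bc_ent, norm_algebraMap'], ?_⟩
    rw [bc_ent, bc_ent, ← map_sub, norm_algebraMap']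
    exact c
  · obtain ⟨g, a⟩ := h.up
    exact ⟨g, by rwa [bc_ent, norm_algebraMap']⟩
  · intro P hP hl g hg
    have := hu P hP hl g hg
    rwa [H20.bc_trace, norm_algebraMap'] at this
  · intro k _ π ψ hπ hψ
    refine h.ub k (π.comp (obMap E')) ψ (fun a ha => hπ _ (by
      rwa [obMap_coe, norm_algebraMap'])) fun g => ?_
    obtain ⟨a, d, ha, hd, q⟩ := hψ g
    let x : Ob E := ⟨_, mem_Ob.2 (h.int g 0 0)⟩
    let y : Ob E := ⟨_, mem_Ob.2 (h.int g 1 1)⟩
    rw [show a = obMap E' x from Subtype.ext (ha.trans (bc_ent _ _ _ _)),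
      show d = obMap E' y from Subtype.ext (hd.trans (bc_ent _ _ _ _))] at q
    exact ⟨x, y, rfl, rfl, q⟩

/-- **RTW** -/
theorem rtw : RTW := fun _ _ _ _ _ h => ⟨fun _ hn => h.tw hn, fun E' _ _ _ => h.ext E'⟩

end Vale.Agent.P022F.Top
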